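import Vale.Agent.P159.H586.Fern0
import Vale.Agent.P159.H447.MassF
import Vale.Agent.P159.H114.AE1

/-!
P159 / second order flow, module FERN (helper586, board row 3431), part 1: the functional forms of
(F1), (F2), (F3) for a convex even function `f` of the field `A g` and, for `f = Rs μ`, the closure
lemma boosted by Fernique (F4). Block decomposition `conv_blocks`.
-/

namespace Vale.Agent.P159.H586

open Real MeasureTheory ProbabilityTheory Matrix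
open Vale.Agent.P159.H37 (gau Rs PK Ev K4)
open Vale.Agent.P159.TM.H104 (EM)

variable {I J K V : Type*} [Fintype I] [Fintype J] [Fintype K] [Fintype V]

/-! ### functional forms -/

section fn

variable {f : (V → ℝ) → ℝ}

/-- the set `{f (A g) ≤ r}` -/
theorem lev_meas (hm : Measurable f) (A : Matrix V I ℝ) (r : ℝ) :
    MeasurableSet {g : I → ℝ | f (A *ᵥ g) ≤ r} :=
  measurableSet_le (hm.comp (by fun_prop : Measurable fun g : I → ℝ => A *ᵥ g)) measurable_const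

omit [Fintype V] in
theorem lev_convex (hf : ConvexOn ℝ Set.univ f) (A : Matrix V I ℝ) (r : ℝ) :
    Convex ℝ {g : I → ℝ | f (A *ᵥ g) ≤ r} := by
  intro x hx y hy a b ha hb hab
  simp only [Set.mem_ofPred_eq] at hx hy ⊢
  have h1 := hf.2 (Set.mem_univ (A *ᵥ x)) (Set.mem_univ (A *ᵥ y)) ha hb hab
  rw [Matrix.mulVec_add, Matrix.mulVec_smul, Matrix.mulVec_smul]
  simp only [smul_eq_mul] at h1
  have h2 : a * f (A *ᵥ x) + b * f (A *ᵥ y) ≤ a * r + b * r :=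
    add_le_add (mul_le_mul_of_nonneg_left hx ha) (mul_le_mul_of_nonneg_left hy hb)
  have h3 : a * r + b * r = r := by rw [← add_mul, hab, one_mul]
  linarith

omit [Fintype V] in
theorem lev_symm (he : ∀ x, f (-x) = f x) (A : Matrix V I ℝ) (r : ℝ) :
    ∀ g ∈ {g : I → ℝ | f (A *ᵥ g) ≤ r}, -g ∈ {g : I → ℝ | f (A *ᵥ g) ≤ r} := by
  intro g hg
  simp only [Set.mem_ofPred_eq] at hg ⊢
  rw [Matrix.mulVec_neg, he]
  exact hg

omit [Fintype V] in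
theorem lev_compl (A : Matrix V I ℝ) (r : ℝ) :
    {g : I → ℝ | f (A *ᵥ g) ≤ r}ᶜ = {g : I → ℝ | r < f (A *ᵥ g)} := by
  ext g
  simp only [Set.mem_compl_iff, Set.mem_ofPred_eq, not_le]

/-- **(F1)** for `f (A g)`: `P(f(A g) > r) ≤ 1/30`, `|h|² ≤ 3` gives `f (A h / 2) ≤ r` -/
theorem cm_f (hm : Measurable f) (hf : ConvexOn ℝ Set.univ f) (he : ∀ x, f (-x) = f x)
    (A : Matrix V I ℝ) {r : ℝ} (hp : (gau I).real {g | r < f (A *ᵥ g)} ≤ 1 / 30) {h : I → ℝ}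
    (hh : ∑ i, h i ^ 2 ≤ 3) : f ((1 / 2 : ℝ) • (A *ᵥ h)) ≤ r := by
  have h1 := cm_ball (lev_meas hm A r) (lev_convex hf A r) (lev_symm he A r)
    (by rw [lev_compl]; exact hp) hh
  simp only [Set.mem_ofPred_eq] at h1
  rwa [Matrix.mulVec_smul] at h1

/-- **(F2)** for `f (A g)`: `P(f(A g / a) > r) ≤ exp(-a²/7)`, `a ≥ 1` -/
theorem fern_f (hm : Measurable f) (hf : ConvexOn ℝ Set.univ f) (he : ∀ x, f (-x) = f x)
    (A : Matrix V I ℝ) {r : ℝ} (hp : (gau I).real {g | r < f (A *ᵥ g)} ≤ 1 / 30) {a : ℝ}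
    (ha : 1 ≤ a) :
    (gau I).real {g | r < f (a⁻¹ • (A *ᵥ g))} ≤ Real.exp (-(a ^ 2 / 7)) := by
  have h1 := fern (lev_meas hm A r) (lev_convex hf A r) (lev_symm he A r)
    (by rw [lev_compl]; exact hp) ha
  refine le_trans (le_of_eq ?_) h1
  congr 1
  ext g
  simp only [Set.mem_ofPred_eq, not_le, Matrix.mulVec_smul]

/-- **(F1) + (F2)**: `P(f(A h / 4 + A g / (2 a)) > r) ≤ exp(-a²/7)`, `|h|² ≤ 3`, `a ≥ 1` -/
theorem cm_noise_f (hm : Measurable f) (hf : ConvexOn ℝ Set.univ f) (he : ∀ x, f (-x) = f x)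
    (A : Matrix V I ℝ) {r : ℝ} (hp : (gau I).real {g | r < f (A *ᵥ g)} ≤ 1 / 30) {h : I → ℝ}
    (hh : ∑ i, h i ^ 2 ≤ 3) {a : ℝ} (ha : 1 ≤ a) :
    (gau I).real {g | r < f ((1 / 4 : ℝ) • (A *ᵥ h) + (1 / (2 * a)) • (A *ᵥ g))}
      ≤ Real.exp (-(a ^ 2 / 7)) := by
  have h1 := cm_noise (lev_meas hm A r) (lev_convex hf A r) (lev_symm he A r)
    (by rw [lev_compl]; exact hp) hh ha
  refine le_trans (le_of_eq ?_) h1
  congr 1
  ext g
  simp only [Set.mem_ofPred_eq, not_le, Matrix.mulVec_add, Matrix.mulVec_smul]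

/-- **(F3)** for `f`: `A Aᵀ ≤ B Bᵀ`: `P(f(x + A g) > r) ≤ 2 P(f(x + B g) > r)` -/
theorem small_cov_f (hm : Measurable f) (hf : ConvexOn ℝ Set.univ f) {A : Matrix V I ℝ}
    {B : Matrix V J ℝ} (h : (B * Bᵀ - A * Aᵀ).PosSemidef) (x : V → ℝ) (r : ℝ) :
    (gau I).real {g | r < f (x + A *ᵥ g)} ≤ 2 * (gau J).real {g | r < f (x + B *ᵥ g)} := by
  have h1 := small_cov h (S := {y | f y ≤ r}) (measurableSet_le hm measurable_const)
    (by simpa using hf.convex_le r) x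
  simpa only [Set.mem_ofPred_eq, not_le] using h1

/-- (F2) for the smaller covariance, hypothesis for the larger one -/
theorem fern_small_f (hm : Measurable f) (hf : ConvexOn ℝ Set.univ f) (he : ∀ x, f (-x) = f x)
    {A : Matrix V I ℝ} {B : Matrix V J ℝ} (h : (B * Bᵀ - A * Aᵀ).PosSemidef) {r : ℝ}
    (hp : (gau J).real {g | r < f (B *ᵥ g)} ≤ 1 / 30) {a : ℝ} (ha : 1 ≤ a) :
    (gau I).real {g | r < f (a⁻¹ • (A *ᵥ g))} ≤ 2 * Real.exp (-(a ^ 2 / 7)) := by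
  have h2 : ((a⁻¹ • B) * (a⁻¹ • B)ᵀ - (a⁻¹ • A) * (a⁻¹ • A)ᵀ).PosSemidef := by
    have e : (a⁻¹ • B) * (a⁻¹ • B)ᵀ - (a⁻¹ • A) * (a⁻¹ • A)ᵀ
        = (a⁻¹ * a⁻¹) • (B * Bᵀ - A * Aᵀ) := by
      rw [Matrix.transpose_smul, Matrix.transpose_smul, Matrix.smul_mul, Matrix.mul_smul,
        Matrix.smul_mul, Matrix.mul_smul, smul_smul, smul_smul, smul_sub]
    rw [e]
    exact h.smul (by positivity)
  have h1 := small_cov_f hm hf h2 0 r
  simp only [zero_add, Matrix.smul_mulVec] at h1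
  have h3 := fern_f hm hf he B hp ha
  linarith

/-- the hypothesis `≤ 1/30` for the smaller covariance at amplitude `1/6` -/
theorem small_hyp_f (hm : Measurable f) (hf : ConvexOn ℝ Set.univ f) (he : ∀ x, f (-x) = f x)
    {A : Matrix V I ℝ} {B : Matrix V J ℝ} (h : (B * Bᵀ - A * Aᵀ).PosSemidef) {r : ℝ}
    (hp : (gau J).real {g | r < f (B *ᵥ g)} ≤ 1 / 30) :
    (gau I).real {g | r < f ((6 : ℝ)⁻¹ • (A *ᵥ g))} ≤ 1 / 30 := by
  refine (fern_small_f hm hf he h hp (a := 6) (by norm_num)).trans ?_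
  have h1 : (5 : ℝ) ≤ 6 ^ 2 / 7 := by norm_num
  have h2 : Real.exp (-((6 : ℝ) ^ 2 / 7)) ≤ Real.exp (-5) := Real.exp_le_exp.2 (by linarith)
  have h3 : Real.exp (-5 : ℝ) ≤ 1 / 60 := by
    rw [Real.exp_neg, inv_le_comm₀ (Real.exp_pos _) (by norm_num)]
    have h4 : (2.7182818283 : ℝ) < Real.exp 1 := Real.exp_one_gt_d9
    have h5 : Real.exp (5 : ℝ) = Real.exp 1 ^ 5 := by rw [← Real.exp_nat_mul]; norm_num
    rw [h5]
    have h6 : (2.7182818283 : ℝ) ^ 5 ≤ Real.exp 1 ^ 5 :=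
      pow_le_pow_left₀ (by norm_num) h4.le 5
    refine le_trans ?_ h6
    norm_num
  linarith

end fn

/-! ### blocks -/

/-- **block decomposition**: `f` convex, `f 0 ≤ r`, `m` at least the number of blocks,
`f (m x_i) ≤ r`: `f (∑ χ_i x_i) ≤ r` for all `χ_i ∈ [0,1]` -/
theorem conv_blocks {E ι : Type*} [AddCommGroup E] [Module ℝ E] {f : E → ℝ}
    (hf : ConvexOn ℝ Set.univ f) {r : ℝ} (h0 : f 0 ≤ r) (s : Finset ι) {m : ℝ} (hm0 : 0 < m)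
    (hm : (s.card : ℝ) ≤ m) {χ : ι → ℝ} (hχ0 : ∀ i ∈ s, 0 ≤ χ i) (hχ1 : ∀ i ∈ s, χ i ≤ 1)
    (x : ι → E) (hx : ∀ i ∈ s, f (m • x i) ≤ r) : f (∑ i ∈ s, χ i • x i) ≤ r := by
  classical
  set w : Option ι → ℝ := fun o => o.elim (1 - ∑ i ∈ s, χ i / m) fun i => χ i / m with hw
  set y : Option ι → E := fun o => o.elim 0 fun i => m • x i with hy
  have hsum : ∑ i ∈ s, χ i / m ≤ 1 := by
    rw [← Finset.sum_div, div_le_one hm0]
    refine le_trans (Finset.sum_le_card_nsmul s χ 1 hχ1) ?_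
    simpa using hm
  have h1 := hf.map_sum_le (t := Finset.insertNone s) (w := w) (p := y)
    (by
      intro o ho
      rcases o with _ | i
      · simp only [hw, Option.elim]
        linarith
      · rw [Finset.some_mem_insertNone] at ho
        simp only [hw, Option.elim]
        have := hχ0 i ho
        positivity)
    (by
      rw [Finset.sum_insertNone]
      simp [hw, Option.elim])
    (fun _ _ => Set.mem_univ _)
  rw [Finset.sum_insertNone, Finset.sum_insertNone] at h1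
  simp only [hw, hy, Option.elim, smul_zero, zero_add, smul_eq_mul, smul_smul] at h1
  have e : ∑ i ∈ s, (χ i / m * m) • x i = ∑ i ∈ s, χ i • x i := by
    refine Finset.sum_congr rfl fun i _ => ?_
    rw [div_mul_cancel₀ _ hm0.ne']
  rw [e] at h1
  refine h1.trans ?_
  have h2 : ∑ i ∈ s, χ i / m * f (m • x i) ≤ ∑ i ∈ s, χ i / m * r := by
    refine Finset.sum_le_sum fun i hi => mul_le_mul_of_nonneg_left (hx i hi) ?_
    have := hχ0 i hi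
    positivity
  rw [← Finset.sum_mul] at h2
  have h3 : (1 - ∑ i ∈ s, χ i / m) * f 0 ≤ (1 - ∑ i ∈ s, χ i / m) * r :=
    mul_le_mul_of_nonneg_left h0 (by linarith)
  linarith

/-- two fields: `f (x + y) ≤ r` when `f (2 x) ≤ r` and `f (2 y) ≤ r` -/
theorem conv_two {E : Type*} [AddCommGroup E] [Module ℝ E] {f : E → ℝ}
    (hf : ConvexOn ℝ Set.univ f) {r : ℝ} {x y : E} (hx : f ((2 : ℝ) • x) ≤ r)
    (hy : f ((2 : ℝ) • y) ≤ r) : f (x + y) ≤ r := by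
  have h1 := hf.2 (Set.mem_univ ((2 : ℝ) • x)) (Set.mem_univ ((2 : ℝ) • y))
    (show (0 : ℝ) ≤ 1 / 2 by norm_num) (show (0 : ℝ) ≤ 1 / 2 by norm_num) (by norm_num)
  have e : (1 / 2 : ℝ) • (2 : ℝ) • x + (1 / 2 : ℝ) • (2 : ℝ) • y = x + y := by
    rw [smul_smul, smul_smul]; norm_num
  rw [e] at h1
  simp only [smul_eq_mul] at h1
  linarith

/-! ### the instance `f = Rs μ` and the closure lemma -/

section rs

variable {μ : (V → ℤ) → ℝ}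

theorem rs_meas (hμ : EM μ) : Measurable (Rs μ) := (H114.continuous_Rs hμ).measurable

/-- **(F1)** for `Rs μ` -/
theorem cm_Rs (hμ : EM μ) (he : Ev μ) (hK : PK μ) (A : Matrix V I ℝ) {r : ℝ}
    (hp : (gau I).real {g | r < Rs μ (A *ᵥ g)} ≤ 1 / 30) {h : I → ℝ} (hh : ∑ i, h i ^ 2 ≤ 3) :
    Rs μ ((1 / 2 : ℝ) • (A *ᵥ h)) ≤ r :=
  cm_f (rs_meas hμ) (H789.Rs_convex hμ he hK) (H789.Rs_neg he) A hp hh

/-- **(F2)** for `Rs μ` -/
theorem fern_Rs (hμ : EM μ) (he : Ev μ) (hK : PK μ) (A : Matrix V I ℝ) {r : ℝ}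
    (hp : (gau I).real {g | r < Rs μ (A *ᵥ g)} ≤ 1 / 30) {a : ℝ} (ha : 1 ≤ a) :
    (gau I).real {g | r < Rs μ (a⁻¹ • (A *ᵥ g))} ≤ Real.exp (-(a ^ 2 / 7)) :=
  fern_f (rs_meas hμ) (H789.Rs_convex hμ he hK) (H789.Rs_neg he) A hp ha

/-- **(F1) + (F2)** for `Rs μ` -/
theorem cm_noise_Rs (hμ : EM μ) (he : Ev μ) (hK : PK μ) (A : Matrix V I ℝ) {r : ℝ}
    (hp : (gau I).real {g | r < Rs μ (A *ᵥ g)} ≤ 1 / 30) {h : I → ℝ} (hh : ∑ i, h i ^ 2 ≤ 3)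
    {a : ℝ} (ha : 1 ≤ a) :
    (gau I).real {g | r < Rs μ ((1 / 4 : ℝ) • (A *ᵥ h) + (1 / (2 * a)) • (A *ᵥ g))}
      ≤ Real.exp (-(a ^ 2 / 7)) :=
  cm_noise_f (rs_meas hμ) (H789.Rs_convex hμ he hK) (H789.Rs_neg he) A hp hh ha

/-- **(F3)** for `Rs μ` -/
theorem small_cov_Rs (hμ : EM μ) (he : Ev μ) (hK : PK μ) {A : Matrix V I ℝ} {B : Matrix V J ℝ}
    (h : (B * Bᵀ - A * Aᵀ).PosSemidef) (x : V → ℝ) (r : ℝ) :
    (gau I).real {g | r < Rs μ (x + A *ᵥ g)} ≤ 2 * (gau J).real {g | r < Rs μ (x + B *ᵥ g)} :=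
  small_cov_f (rs_meas hμ) (H789.Rs_convex hμ he hK) h x r

theorem small_hyp_Rs (hμ : EM μ) (he : Ev μ) (hK : PK μ) {A : Matrix V I ℝ} {B : Matrix V J ℝ}
    (h : (B * Bᵀ - A * Aᵀ).PosSemidef) {r : ℝ}
    (hp : (gau J).real {g | r < Rs μ (B *ᵥ g)} ≤ 1 / 30) :
    (gau I).real {g | r < Rs μ ((6 : ℝ)⁻¹ • (A *ᵥ g))} ≤ 1 / 30 :=
  small_hyp_f (rs_meas hμ) (H789.Rs_convex hμ he hK) (H789.Rs_neg he) h hp

/-- blocks for `Rs μ` -/
theorem blocks_Rs {ι : Type*} (hμ : EM μ) (he : Ev μ) (hK : PK μ) {r : ℝ} (hr : 0 ≤ r)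
    (s : Finset ι) {m : ℝ} (hm0 : 0 < m) (hm : (s.card : ℝ) ≤ m) {χ : ι → ℝ}
    (hχ0 : ∀ i ∈ s, 0 ≤ χ i) (hχ1 : ∀ i ∈ s, χ i ≤ 1) (x : ι → V → ℝ)
    (hx : ∀ i ∈ s, Rs μ (m • x i) ≤ r) : Rs μ (∑ i ∈ s, χ i • x i) ≤ r :=
  conv_blocks (H789.Rs_convex hμ he hK) (by rw [H789.Rs_zero]; exact hr) s hm0 hm hχ0 hχ1 x hx

lemma K4S_scale (c : ℝ) (A : Matrix V I ℝ) :
    H447.K4S μ ((c • A) * (c • A)ᵀ) ((c • A) * (c • A)ᵀ) = c ^ 4 * H447.K4S μ (A * Aᵀ) (A * Aᵀ) := by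
  have e : (c • A) * (c • A)ᵀ = (c * c) • (A * Aᵀ) := by
    rw [Matrix.transpose_smul, Matrix.smul_mul, Matrix.mul_smul, smul_smul]
  rw [e, H447.K4S_smul_left, H447.K4S_comm, H447.K4S_smul_left]
  ring

/-- **(F4) closure boosted by Fernique**, general level `lam` of the fourth cumulant -/
theorem closure_fern' (hμ : EM μ) (he : Ev μ) (hK : PK μ) (A : Matrix V I ℝ)
    (hp : (gau I).real {g | 1 < Rs μ (A *ᵥ g)} ≤ 1 / 30) {D : ℝ} (hD : 0 < D)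
    (h : H447.K4S μ (A * Aᵀ) (A * Aᵀ) ≤ D) (n : ℕ) {a : ℝ} (ha : 1 ≤ a) {lam : ℝ}
    (hl : 0 ≤ lam) :
    (gau I).real {g | 8 * √(lam * (D / (2 ^ n * a) ^ 4) / 2) ^ (2 - 2 * (1 / 2 : ℝ) ^ n)
        < Rs μ ((2 ^ n * a)⁻¹ • (A *ᵥ g))}
      ≤ Real.exp (-(a ^ 2 / 7)) + 6 * Real.exp (-(√lam / 10)) := by
  have ha0 : 0 < a := by linarith
  have h2n : (0 : ℝ) < 2 ^ n := by positivity
  set c : ℝ := (2 ^ n * a)⁻¹ with hc
  have hc0 : 0 < c := by positivity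
  have hDD : H447.K4S μ ((c • A) * (c • A)ᵀ) ((c • A) * (c • A)ᵀ) ≤ D / (2 ^ n * a) ^ 4 := by
    rw [K4S_scale, hc, inv_pow, inv_mul_eq_div]
    exact div_le_div_of_nonneg_right h (by positivity)
  have h1 := H447.Rs_tail hμ he hK (c • A) (D := D / (2 ^ n * a) ^ 4) (by positivity) hDD n hl
  have h2 := fern_Rs hμ he hK A hp ha
  refine le_trans ?_ (add_le_add h2 h1)
  refine le_trans (measureReal_mono ?_) (measureReal_union_le _ _)
  intro g hg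
  simp only [Set.mem_ofPred_eq, Set.mem_union] at hg ⊢
  by_cases h3 : Rs μ ((2 : ℝ) ^ n • ((c • A) *ᵥ g)) ≤ 1
  · right
    refine ⟨h3, ?_⟩
    rw [Matrix.smul_mulVec]
    exact hg
  · left
    push Not at h3
    rw [Matrix.smul_mulVec, smul_smul] at h3
    have e : (2 : ℝ) ^ n * c = a⁻¹ := by
      rw [hc, mul_inv]
      field_simp
    rwa [e] at h3

/-- **(F4) closure boosted by Fernique**: for every `a ≥ 1`
`P(Rs((2ⁿ a)⁻¹ A g) > 8 (50 D / 16ⁿ)^(1 - 2⁻ⁿ)) ≤ 7 exp(-a²/7)` -/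
theorem closure_fern (hμ : EM μ) (he : Ev μ) (hK : PK μ) (A : Matrix V I ℝ)
    (hp : (gau I).real {g | 1 < Rs μ (A *ᵥ g)} ≤ 1 / 30) {D : ℝ} (hD : 0 < D)
    (h : H447.K4S μ (A * Aᵀ) (A * Aᵀ) ≤ D) (n : ℕ) {a : ℝ} (ha : 1 ≤ a) :
    (gau I).real {g | 8 * (50 * D / 16 ^ n) ^ (1 - (1 / 2 : ℝ) ^ n)
        < Rs μ ((2 ^ n * a)⁻¹ • (A *ᵥ g))}
      ≤ 7 * Real.exp (-(a ^ 2 / 7)) := by
  have ha0 : 0 < a := by linarith
  have h1 := closure_fern' hμ he hK A hp hD h n ha (lam := 100 * a ^ 4) (by positivity)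
  have e1 : √(100 * a ^ 4) / 10 = a ^ 2 := by
    have : (100 : ℝ) * a ^ 4 = (10 * a ^ 2) ^ 2 := by ring
    rw [this, Real.sqrt_sq (by positivity)]
    ring
  have e2 : 100 * a ^ 4 * (D / (2 ^ n * a) ^ 4) / 2 = 50 * D / 16 ^ n := by
    have : ((2 : ℝ) ^ n * a) ^ 4 = 16 ^ n * a ^ 4 := by
      rw [mul_pow, ← pow_mul, mul_comm n 4, pow_mul]; norm_num
    rw [this]
    field_simp
    ring
  have e3 : √(50 * D / 16 ^ n) ^ (2 - 2 * (1 / 2 : ℝ) ^ n)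
      = (50 * D / 16 ^ n) ^ (1 - (1 / 2 : ℝ) ^ n) := by
    rw [Real.sqrt_eq_rpow, ← Real.rpow_mul (by positivity)]
    congr 1
    ring
  rw [e1, e2, e3] at h1
  refine h1.trans ?_
  have h2 : Real.exp (-a ^ 2) ≤ Real.exp (-(a ^ 2 / 7)) := by
    refine Real.exp_le_exp.2 ?_
    have : 0 ≤ a ^ 2 := sq_nonneg a
    linarith
  linarith

end rs

end Vale.Agent.P159.H586
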