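import Vale.Agent.P159.H239.Ray1

/-!
P159 / second order flow, module FERN (helper586, board row 3431), part 0: symmetric convex sets and
the standard Gaussian measure `gau I`.

`cm_ball`   (F1)  Cameron-Martin ball: `γ(Cᶜ) ≤ 1/30`, `|h|² ≤ 3` gives `h/2 ∈ C`
`fern`      (F2)  Fernique tail by rotation: `γ(g/a ∉ C) ≤ exp(-a²/7)`, `a ≥ 1`
`small_cov` (F3)  smaller covariance is better up to the factor 2 (any shift, any convex set)
-/

namespace Vale.Agent.P159.H586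

open Real MeasureTheory ProbabilityTheory Matrix
open Vale.Agent.P159.H37 (gau)

variable {I J K V : Type*} [Fintype I] [Fintype J] [Fintype K] [Fintype V]

/-! ### (F1) -/

/-- Cauchy-Schwarz for the Cameron-Martin density -/
theorem gau_shift_set {B : Set (I → ℝ)} (hB : MeasurableSet B) (h : I → ℝ) :
    (gau I).real {g | g + h ∈ B} ≤ √((gau I).real B) * Real.exp ((∑ i, h i ^ 2) / 2) := by
  set E : (I → ℝ) → ℝ := fun g => Real.exp ((∑ i, h i * g i) - (∑ i, h i ^ 2) / 2) with hE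
  set χ : (I → ℝ) → ℝ := B.indicator fun _ => (1 : ℝ) with hχ
  set P : ℝ := (gau I).real B with hP
  set M : ℝ := ∫ g, E g * χ g ∂(gau I) with hM
  have hP0 : 0 ≤ P := measureReal_nonneg
  have e1 : (gau I).real {g | g + h ∈ B} = M := by
    have h1 : {g : I → ℝ | g + h ∈ B} = (fun g => g + h) ⁻¹' B := rfl
    have h2 : MeasurableSet {g : I → ℝ | g + h ∈ B} := by
      rw [h1]; exact (measurable_add_const h) hB
    have h3 : ∫ g, χ (g + h) ∂(gau I) = (gau I).real {g | g + h ∈ B} := by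
      have h4 : (fun g => χ (g + h)) = {g : I → ℝ | g + h ∈ B}.indicator fun _ => (1 : ℝ) := by
        funext g
        by_cases hg : g + h ∈ B
        · simp [hχ, hg]
        · simp [hχ, hg]
      rw [h4, integral_indicator h2, setIntegral_const, smul_eq_mul, mul_one]
    rw [← h3, H37.gau_shift]
  -- integrability
  have iE : Integrable E (gau I) := by
    have := (H37.integrable_exp_lin h).mul_const (Real.exp (-((∑ i, h i ^ 2) / 2)))
    refine this.congr (Filter.Eventually.of_forall fun g => ?_)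
    simp only [hE, ← Real.exp_add]
    rw [sub_eq_add_neg]
  have eE : ∀ g, E g ^ 2 = Real.exp (∑ i, (2 * h i) * g i) * Real.exp (-(∑ i, h i ^ 2)) := by
    intro g
    simp only [hE]
    rw [← Real.exp_nat_mul, ← Real.exp_add]
    congr 1
    have : ∑ i, (2 * h i) * g i = 2 * ∑ i, h i * g i := by
      rw [Finset.mul_sum]; exact Finset.sum_congr rfl fun i _ => by ring
    rw [this]
    push_cast
    ring
  have iE2 : Integrable (fun g => E g ^ 2) (gau I) := by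
    simp only [eE]
    exact (H37.integrable_exp_lin fun i => 2 * h i).mul_const _
  have vE2 : ∫ g, E g ^ 2 ∂(gau I) = Real.exp (∑ i, h i ^ 2) := by
    simp only [eE]
    rw [integral_mul_const, H37.gau_exp, ← Real.exp_add]
    congr 1
    have : ∑ i, (2 * h i) ^ 2 = 4 * ∑ i, h i ^ 2 := by
      rw [Finset.mul_sum]; exact Finset.sum_congr rfl fun i _ => by ring
    rw [this]
    ring
  have iχ : Integrable χ (gau I) := (integrable_const (1 : ℝ)).indicator hB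
  have iM : Integrable (fun g => E g * χ g) (gau I) := by
    have : (fun g => E g * χ g) = B.indicator E := by
      funext g
      by_cases hg : g ∈ B
      · simp [hχ, hg]
      · simp [hχ, hg]
    rw [this]
    exact iE.indicator hB
  have vχ : ∫ g, χ g ^ 2 ∂(gau I) = P := by
    have : (fun g => χ g ^ 2) = χ := by
      funext g
      by_cases hg : g ∈ B
      · simp [hχ, hg]
      · simp [hχ, hg]
    rw [this, hχ, integral_indicator hB, setIntegral_const, smul_eq_mul, mul_one]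
  have iχ2 : Integrable (fun g => χ g ^ 2) (gau I) := by
    have : (fun g => χ g ^ 2) = χ := by
      funext g
      by_cases hg : g ∈ B
      · simp [hχ, hg]
      · simp [hχ, hg]
    rw [this]
    exact iχ
  have hq : ∀ x : ℝ, 0 ≤ Real.exp (∑ i, h i ^ 2) * (x * x) + (-2 * M) * x + P := by
    intro x
    have h1 : 0 ≤ ∫ g, (x * E g - χ g) ^ 2 ∂(gau I) := integral_nonneg fun g => sq_nonneg _
    have h2 : ∫ g, (x * E g - χ g) ^ 2 ∂(gau I)
        = ∫ g, (x ^ 2 * E g ^ 2 + (-2 * x) * (E g * χ g)) + χ g ^ 2 ∂(gau I) :=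
      integral_congr_ae (Filter.Eventually.of_forall fun g => by simp only; ring)
    have i12 : Integrable (fun g => x ^ 2 * E g ^ 2 + (-2 * x) * (E g * χ g)) (gau I) :=
      (iE2.const_mul _).add (iM.const_mul _)
    rw [h2, integral_add i12 iχ2,
      integral_add (iE2.const_mul _) (iM.const_mul _), integral_const_mul, integral_const_mul,
      vE2, vχ] at h1
    nlinarith
  have hd := discrim_le_zero hq
  unfold discrim at hd
  have h5 : M ^ 2 ≤ Real.exp (∑ i, h i ^ 2) * P := by nlinarith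
  rw [e1]
  have h6 : √P * Real.exp ((∑ i, h i ^ 2) / 2) = √(Real.exp (∑ i, h i ^ 2) * P) := by
    rw [Real.sqrt_mul (Real.exp_pos _).le, Real.exp_half]
    ring
  rw [h6]
  exact Real.le_sqrt_of_sq_le h5

/-- **(F1) Cameron-Martin ball**, general form -/
theorem cm_ball' {C : Set (I → ℝ)} (hm : MeasurableSet C) (hc : Convex ℝ C)
    (hs : ∀ g ∈ C, -g ∈ C) {p : ℝ} (hp : (gau I).real Cᶜ ≤ p) {h : I → ℝ}
    (hh : p + √p * Real.exp ((∑ i, h i ^ 2) / 2) < 1) : (1 / 2 : ℝ) • h ∈ C := by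
  have h1 : (gau I).real (Cᶜ ∪ {g | g + h ∈ Cᶜ}) < 1 := by
    refine lt_of_le_of_lt (measureReal_union_le _ _) (lt_of_le_of_lt ?_ hh)
    refine add_le_add hp ((gau_shift_set hm.compl h).trans ?_)
    exact mul_le_mul_of_nonneg_right (Real.sqrt_le_sqrt hp) (Real.exp_pos _).le
  have h2 : ∃ g, g ∉ Cᶜ ∪ {g | g + h ∈ Cᶜ} := by
    by_contra h3
    push Not at h3
    have h4 : Cᶜ ∪ {g | g + h ∈ Cᶜ} = Set.univ := Set.eq_univ_of_forall h3
    rw [h4, probReal_univ] at h1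
    exact lt_irrefl _ h1
  obtain ⟨g, hg⟩ := h2
  simp only [Set.mem_union, Set.mem_compl_iff, Set.mem_ofPred_eq, not_or, not_not] at hg
  obtain ⟨g1, g2⟩ := hg
  have h5 := hc g2 (hs g g1) (show (0 : ℝ) ≤ 1 / 2 by norm_num)
    (show (0 : ℝ) ≤ 1 / 2 by norm_num) (by norm_num)
  have e : (1 / 2 : ℝ) • (g + h) + (1 / 2 : ℝ) • -g = (1 / 2 : ℝ) • h := by
    rw [← smul_add]; congr 1; abel
  rwa [e] at h5

theorem exp_three_half : Real.exp (3 / 2) < 5 := by
  have h1 : Real.exp (3 / 2) = Real.exp 1 * Real.exp (1 / 2) := by rw [← Real.exp_add]; norm_num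
  have h2 : Real.exp 1 < 2.7182818286 := Real.exp_one_lt_d9
  have h3 : Real.exp (1 / 2) < 1.65 := by
    have : Real.exp (1 / 2) ^ 2 = Real.exp 1 := by
      rw [← Real.exp_nat_mul]; norm_num
    nlinarith [Real.exp_pos (1 / 2)]
  rw [h1]
  nlinarith [Real.exp_pos (1 : ℝ), Real.exp_pos (1 / 2 : ℝ)]

/-- **(F1) Cameron-Martin ball**: `γ(Cᶜ) ≤ 1/30`, `|h|² ≤ 3` gives `h/2 ∈ C` -/
theorem cm_ball {C : Set (I → ℝ)} (hm : MeasurableSet C) (hc : Convex ℝ C)
    (hs : ∀ g ∈ C, -g ∈ C) (hp : (gau I).real Cᶜ ≤ 1 / 30) {h : I → ℝ}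
    (hh : ∑ i, h i ^ 2 ≤ 3) : (1 / 2 : ℝ) • h ∈ C := by
  refine cm_ball' hm hc hs hp ?_
  have h1 : Real.exp ((∑ i, h i ^ 2) / 2) ≤ Real.exp (3 / 2) := Real.exp_le_exp.2 (by linarith)
  have h2 : √(1 / 30 : ℝ) ≤ 0.1826 := by
    rw [Real.sqrt_le_left (by norm_num)]
    norm_num
  have h3 := exp_three_half
  have h4 : √(1 / 30 : ℝ) * Real.exp ((∑ i, h i ^ 2) / 2) ≤ 0.1826 * 5 :=
    mul_le_mul h2 (h1.trans h3.le) (Real.exp_pos _).le (by norm_num)
  norm_num at h4 ⊢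
  linarith

/-! ### (F2) -/

/-- rotation of two independent standard Gaussian vectors -/
theorem rot : MeasurePreserving
    (fun p : (I → ℝ) × (I → ℝ) => ((√2)⁻¹ • (p.1 + p.2), (√2)⁻¹ • (p.1 - p.2)))
    ((gau I).prod (gau I)) ((gau I).prod (gau I)) := by
  classical
  refine ⟨by fun_prop, ?_⟩
  set c : ℝ := (√2)⁻¹ with hc
  have hc2 : c * c + c * c = 1 := by
    have : c * c = 1 / 2 := by
      rw [hc, ← mul_inv, Real.mul_self_sqrt (by norm_num)]
      norm_num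
    rw [this]; norm_num
  set D : Matrix I I ℝ := c • (1 : Matrix I I ℝ) with hD
  have hDD : D * Dᵀ + D * Dᵀ = 1 := by
    rw [hD, Matrix.transpose_smul, Matrix.transpose_one, Matrix.smul_mul, Matrix.mul_smul,
      Matrix.mul_one, smul_smul, ← add_smul, hc2, one_smul]
  set A : Matrix (I ⊕ I) (I ⊕ I) ℝ := Matrix.fromBlocks D D D (-D) with hA
  have hAA : A * Aᵀ = (1 : Matrix (I ⊕ I) (I ⊕ I) ℝ) * (1 : Matrix (I ⊕ I) (I ⊕ I) ℝ)ᵀ := by
    rw [hA, Matrix.fromBlocks_transpose, Matrix.fromBlocks_multiply, Matrix.transpose_one,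
      Matrix.mul_one, ← Matrix.fromBlocks_one, Matrix.transpose_neg, Matrix.mul_neg,
      Matrix.neg_mul, Matrix.neg_mul, Matrix.mul_neg, neg_neg, add_neg_cancel, hDD]
  have h1 := H239.gau_map_congr hAA
  have h2 : (gau (I ⊕ I)).map (fun g => A *ᵥ g) = gau (I ⊕ I) := by
    rw [h1]
    simp only [Matrix.one_mulVec]
    exact Measure.map_id
  have hS := H37.gau_sum (I₁ := I) (I₂ := I)
  set Ψ := MeasurableEquiv.sumPiEquivProdPi fun _ : I ⊕ I => ℝ with hΨ
  have h3 : ((gau I).prod (gau I)) = (gau (I ⊕ I)).map Ψ := hS.map_eq.symm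
  rw [h3, Measure.map_map (by fun_prop) Ψ.measurable]
  have h4 : ((fun p : (I → ℝ) × (I → ℝ) => (c • (p.1 + p.2), c • (p.1 - p.2))) ∘ Ψ)
      = Ψ ∘ fun g => A *ᵥ g := by
    funext g
    simp only [Function.comp]
    refine Prod.ext ?_ ?_
    · funext i
      show c * (g (Sum.inl i) + g (Sum.inr i)) = (A *ᵥ g) (Sum.inl i)
      simp [hA, hD, Matrix.mulVec, dotProduct, Fintype.sum_sum_type, Matrix.fromBlocks, mul_add,
        Matrix.one_apply]
    · funext i
      show c * (g (Sum.inl i) - g (Sum.inr i)) = (A *ᵥ g) (Sum.inr i)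
      simp [hA, hD, Matrix.mulVec, dotProduct, Fintype.sum_sum_type, Matrix.fromBlocks, mul_add,
        Matrix.one_apply, sub_eq_add_neg]
  rw [h4, ← Measure.map_map Ψ.measurable (by fun_prop), h2]

/-- the rotation step of Fernique's theorem -/
theorem fern_step {C : Set (I → ℝ)} (hm : MeasurableSet C) (hc : Convex ℝ C)
    (hs : ∀ g ∈ C, -g ∈ C) {s : ℝ} (hs0 : 0 < s) :
    (gau I).real C * (gau I).real {g | (1 + √2 * s)⁻¹ • g ∉ C}
      ≤ (gau I).real {g | s⁻¹ • g ∉ C} ^ 2 := by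
  set s' : ℝ := 1 + √2 * s with hs'
  have h2 : 0 < √2 := by positivity
  have hs'0 : 0 < s' := by positivity
  have m1 : MeasurableSet {g : I → ℝ | s'⁻¹ • g ∉ C} :=
    ((by fun_prop : Measurable fun g : I → ℝ => s'⁻¹ • g) hm).compl
  have m2 : MeasurableSet {g : I → ℝ | s⁻¹ • g ∉ C} :=
    ((by fun_prop : Measurable fun g : I → ℝ => s⁻¹ • g) hm).compl
  have e1 : (gau I).real C * (gau I).real {g | s'⁻¹ • g ∉ C}
      = ((gau I).prod (gau I)).real ({g : I → ℝ | s'⁻¹ • g ∉ C} ×ˢ C) := by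
    rw [measureReal_prod_prod, mul_comm]
  have e2 : (gau I).real {g | s⁻¹ • g ∉ C} ^ 2
      = ((gau I).prod (gau I)).real ({g : I → ℝ | s⁻¹ • g ∉ C} ×ˢ {g : I → ℝ | s⁻¹ • g ∉ C}) := by
    rw [measureReal_prod_prod, sq]
  rw [e1, e2]
  have hr := rot (I := I)
  rw [← hr.measureReal_preimage (m1.prod hm).nullMeasurableSet]
  refine measureReal_mono ?_
  rintro ⟨g, g'⟩ hg
  simp only [Set.mem_preimage, Set.mem_prod, Set.mem_ofPred_eq] at hg ⊢
  obtain ⟨hx, hy⟩ := hg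
  set x : I → ℝ := (√2)⁻¹ • (g + g') with hxd
  set y : I → ℝ := (√2)⁻¹ • (g - g') with hyd
  have key : ∀ z w : I → ℝ, s⁻¹ • z ∈ C → w ∈ C → x = √2 • z + w → s'⁻¹ • x ∈ C := by
    intro z w hz hw e
    have h5 := hc hz hw (show 0 ≤ √2 * s / s' by positivity) (show 0 ≤ 1 / s' by positivity)
      (by rw [← add_div, hs', add_comm (√2 * s) 1]; exact div_self (by rw [← hs']; exact hs'0.ne'))
    have e3 : (√2 * s / s') • s⁻¹ • z + (1 / s') • w = s'⁻¹ • x := by
      rw [e, smul_add, smul_smul, smul_smul, one_div]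
      congr 2
      field_simp
    rwa [e3] at h5
  constructor
  · intro hz
    refine hx (key g (-y) hz (hs y hy) ?_)
    funext i
    simp only [hxd, hyd, Pi.smul_apply, Pi.add_apply, Pi.sub_apply, Pi.neg_apply, smul_eq_mul]
    have h6 : √2 ^ 2 = 2 := Real.sq_sqrt (by norm_num)
    field_simp
    rw [h6]
    ring
  · intro hz
    refine hx (key g' y hz hy ?_)
    funext i
    simp only [hxd, hyd, Pi.smul_apply, Pi.add_apply, Pi.sub_apply, smul_eq_mul]
    have h6 : √2 ^ 2 = 2 := Real.sq_sqrt (by norm_num)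
    field_simp
    rw [h6]
    ring

/-- radii of the Fernique iteration -/
noncomputable def tt : ℕ → ℝ
  | 0 => 1
  | n + 1 => 1 + √2 * tt n

theorem tt_ge (n : ℕ) : (n : ℝ) + 1 ≤ tt n := by
  induction n with
  | zero => simp [tt]
  | succ n ih =>
    have h1 : (1 : ℝ) ≤ √2 := by
      rw [show (1 : ℝ) = √1 by simp]
      exact Real.sqrt_le_sqrt (by norm_num)
    have h2 : (0 : ℝ) ≤ tt n := by
      have : (0 : ℝ) ≤ n := Nat.cast_nonneg n
      linarith
    simp only [tt]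
    push_cast
    nlinarith

theorem tt_pos (n : ℕ) : 0 < tt n := by
  have := tt_ge n
  have : (0 : ℝ) ≤ n := Nat.cast_nonneg n
  linarith

theorem tt_sq_le (n : ℕ) : tt n ^ 2 ≤ 23.32 / 2 * 2 ^ n - 1 := by
  -- tt n + (1 + √2) = (2 + √2) √2 ^ n
  have h2 : √2 ^ 2 = 2 := Real.sq_sqrt (by norm_num)
  have hlo : 1.4142 < √2 := by
    rw [Real.lt_sqrt (by norm_num)]; norm_num
  have hhi : √2 < 1.41422 := by
    rw [Real.sqrt_lt' (by norm_num)]; norm_num
  have e : ∀ n, tt n + (1 + √2) = (2 + √2) * √2 ^ n := by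
    intro n
    induction n with
    | zero => simp only [tt, pow_zero, mul_one]; ring
    | succ n ih =>
      simp only [tt]
      have : √2 * tt n = (2 + √2) * √2 ^ (n + 1) - √2 * (1 + √2) := by
        have h5 : √2 * (tt n + (1 + √2)) = √2 * ((2 + √2) * √2 ^ n) := by rw [ih]
        rw [pow_succ]
        linarith
      rw [this]
      nlinarith
  have e2 : (√2 ^ n) ^ 2 = 2 ^ n := by
    rw [← pow_mul, mul_comm, pow_mul, h2]
  have hp : (1 : ℝ) ≤ √2 ^ n := one_le_pow₀ (by linarith)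
  have e3 := e n
  set z : ℝ := √2 ^ n with hz
  have e4 : tt n = (2 + √2) * z - (1 + √2) := by linarith
  rw [e4, ← e2]
  have e5 : ((2 + √2) * z - (1 + √2)) ^ 2
      = (6 + 4 * √2) * z ^ 2 - (8 + 6 * √2) * z + (3 + 2 * √2) := by
    have : ((2 + √2) * z - (1 + √2)) ^ 2 = (4 + 4 * √2 + √2 ^ 2) * z ^ 2
        - 2 * (2 + 3 * √2 + √2 ^ 2) * z + (1 + 2 * √2 + √2 ^ 2) := by ring
    rw [this, h2]
    ring
  rw [e5]
  nlinarith

/-- the iteration: `γ(g / t_n ∉ C) ≤ ρ ^ (2 ^ n)` -/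
theorem fern_iter {C : Set (I → ℝ)} (hm : MeasurableSet C) (hc : Convex ℝ C)
    (hs : ∀ g ∈ C, -g ∈ C) {ρ : ℝ} (hρ : (gau I).real Cᶜ ≤ ρ * (gau I).real C)
    (hC : 0 < (gau I).real C) (n : ℕ) :
    (gau I).real {g | (tt n)⁻¹ • g ∉ C} ≤ ρ ^ 2 ^ n * (gau I).real C := by
  have hρ0 : 0 ≤ ρ := by
    by_contra h
    push Not at h
    have h1 : ρ * (gau I).real C < 0 := mul_neg_of_neg_of_pos h hC
    have h2 : 0 ≤ (gau I).real Cᶜ := measureReal_nonneg
    linarith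
  induction n with
  | zero =>
    simp only [tt, inv_one, one_smul, pow_zero, pow_one]
    exact hρ
  | succ n ih =>
    have h1 := fern_step hm hc hs (tt_pos n)
    have h2 : tt (n + 1) = 1 + √2 * tt n := rfl
    rw [← h2] at h1
    have h3 : (gau I).real {g | (tt n)⁻¹ • g ∉ C} ^ 2 ≤ (ρ ^ 2 ^ n * (gau I).real C) ^ 2 :=
      pow_le_pow_left₀ measureReal_nonneg ih 2
    have h4 : (ρ ^ 2 ^ n * (gau I).real C) ^ 2
        = (gau I).real C * (ρ ^ 2 ^ (n + 1) * (gau I).real C) := by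
      rw [mul_pow, ← pow_mul, ← pow_succ]
      ring
    exact le_of_mul_le_mul_left (h1.trans (h3.trans_eq h4)) hC

omit [Fintype I] in
/-- monotonicity in the radius -/
theorem scale_mono {C : Set (I → ℝ)} (hc : Convex ℝ C) (h0 : (0 : I → ℝ) ∈ C) {s t : ℝ}
    (hs : 0 < s) (hst : s ≤ t) {g : I → ℝ} (hg : s⁻¹ • g ∈ C) : t⁻¹ • g ∈ C := by
  have ht : 0 < t := hs.trans_le hst
  have h1 := hc hg h0 (show 0 ≤ s / t by positivity) (show 0 ≤ 1 - s / t by
    rw [sub_nonneg, div_le_one ht]; exact hst) (by ring)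
  have e : (s / t) • s⁻¹ • g + (1 - s / t) • (0 : I → ℝ) = t⁻¹ • g := by
    rw [smul_zero, add_zero, smul_smul]
    congr 1
    field_simp
  rwa [e] at h1

theorem zero_mem_of {C : Set (I → ℝ)} (hc : Convex ℝ C) (hs : ∀ g ∈ C, -g ∈ C)
    (hC : 0 < (gau I).real C) : (0 : I → ℝ) ∈ C := by
  have hne : C.Nonempty := by
    by_contra h
    rw [Set.not_nonempty_iff_eq_empty] at h
    rw [h] at hC
    simp at hC
  obtain ⟨g, hg⟩ := hne
  have h1 := hc hg (hs g hg) (show (0 : ℝ) ≤ 1 / 2 by norm_num)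
    (show (0 : ℝ) ≤ 1 / 2 by norm_num) (by norm_num)
  have e : (1 / 2 : ℝ) • g + (1 / 2 : ℝ) • -g = 0 := by
    rw [smul_neg, add_neg_cancel]
  rwa [e] at h1

/-- **(F2) Fernique tail by rotation**, general form: `γ(Cᶜ) ≤ ρ γ(C)`, `ρ ≤ 1`, `a ≥ 1` -/
theorem fern' {C : Set (I → ℝ)} (hm : MeasurableSet C) (hc : Convex ℝ C)
    (hs : ∀ g ∈ C, -g ∈ C) {ρ : ℝ} (hρ0 : 0 < ρ) (hρ1 : ρ ≤ 1)
    (hρ : (gau I).real Cᶜ ≤ ρ * (gau I).real C) (hC : 0 < (gau I).real C) {a : ℝ} (ha : 1 ≤ a) :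
    (gau I).real {g | a⁻¹ • g ∉ C} ≤ ρ ^ (a ^ 2 / 23.32 : ℝ) := by
  classical
  have hex : ∃ n, a < tt (n + 1) := by
    obtain ⟨n, hn⟩ := exists_nat_gt a
    refine ⟨n, hn.trans_le ?_⟩
    have := tt_ge (n + 1)
    push_cast at this
    linarith
  set n := Nat.find hex with hn
  have h1 : a < tt (n + 1) := Nat.find_spec hex
  have h2 : tt n ≤ a := by
    rcases Nat.eq_zero_or_pos n with h | h
    · rw [h]; simpa [tt] using ha
    · have h3 := Nat.find_min hex (m := n - 1) (by omega)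
      push Not at h3
      rwa [Nat.sub_add_cancel h] at h3
  have h0 := zero_mem_of hc hs hC
  have h4 : (gau I).real {g | a⁻¹ • g ∉ C} ≤ (gau I).real {g | (tt n)⁻¹ • g ∉ C} := by
    refine measureReal_mono fun g hg => ?_
    simp only [Set.mem_ofPred_eq] at hg ⊢
    exact fun h => hg (scale_mono hc h0 (tt_pos n) h2 h)
  have h5 := fern_iter hm hc hs hρ hC n
  have h6 : (gau I).real C ≤ 1 := measureReal_le_one
  have h7 : ρ ^ 2 ^ n * (gau I).real C ≤ ρ ^ 2 ^ n := by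
    have : 0 ≤ ρ ^ 2 ^ n := by positivity
    nlinarith
  refine h4.trans (h5.trans (h7.trans ?_))
  rw [← Real.rpow_natCast]
  refine Real.rpow_le_rpow_of_exponent_ge hρ0 hρ1 ?_
  push_cast
  rw [div_le_iff₀ (by norm_num)]
  have h8 := tt_sq_le (n + 1)
  have h9 : a ^ 2 ≤ tt (n + 1) ^ 2 := pow_le_pow_left₀ (by linarith) h1.le 2
  have h10 : (2 : ℝ) ^ (n + 1) = 2 * 2 ^ n := by ring
  rw [h10] at h8
  linarith

theorem log_29 : (3.36 : ℝ) ≤ Real.log 29 := by
  rw [Real.le_log_iff_exp_le (by norm_num)]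
  have h1 : Real.exp (3.36 : ℝ) = Real.exp 1 ^ 3 * Real.exp 0.36 := by
    rw [← Real.exp_nat_mul, ← Real.exp_add]; norm_num
  have h2 : Real.exp 1 < 2.7182818286 := Real.exp_one_lt_d9
  have h3 : Real.exp (0.36 : ℝ) ≤ 1.4334 := by
    have := Real.exp_bound' (x := 0.36) (by norm_num) (by norm_num) (n := 5) (by norm_num)
    refine this.trans ?_
    norm_num [Finset.sum_range_succ, Nat.factorial]
  have h4 : Real.exp 1 ^ 3 ≤ 2.7182818286 ^ 3 :=
    pow_le_pow_left₀ (Real.exp_pos _).le h2.le 3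
  rw [h1]
  calc Real.exp 1 ^ 3 * Real.exp 0.36 ≤ 2.7182818286 ^ 3 * 1.4334 :=
        mul_le_mul h4 h3 (Real.exp_pos _).le (by norm_num)
    _ ≤ 29 := by norm_num

/-- **(F2) Fernique tail by rotation**: `γ(Cᶜ) ≤ 1/30`, `a ≥ 1` gives
`γ(g / a ∉ C) ≤ exp(-a²/7)` -/
theorem fern {C : Set (I → ℝ)} (hm : MeasurableSet C) (hc : Convex ℝ C)
    (hs : ∀ g ∈ C, -g ∈ C) (hp : (gau I).real Cᶜ ≤ 1 / 30) {a : ℝ} (ha : 1 ≤ a) :
    (gau I).real {g | a⁻¹ • g ∉ C} ≤ Real.exp (-(a ^ 2 / 7)) := by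
  have h1 : (gau I).real C = 1 - (gau I).real Cᶜ := by
    have := probReal_compl_eq_one_sub (μ := gau I) hm
    linarith
  have h2 := fern' hm hc hs (ρ := 1 / 29) (by norm_num) (by norm_num)
    (by rw [h1]; linarith) (by rw [h1]; linarith) ha
  refine h2.trans ?_
  rw [Real.rpow_def_of_pos (by norm_num)]
  refine Real.exp_le_exp.2 ?_
  have h3 : Real.log (1 / 29) = -Real.log 29 := by rw [one_div, Real.log_inv]
  rw [h3]
  have h4 := log_29
  have h5 : 0 ≤ a ^ 2 := sq_nonneg a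
  have h6 : Real.log 29 * (a ^ 2 / 23.32) ≥ 3.36 * (a ^ 2 / 23.32) :=
    mul_le_mul_of_nonneg_right h4 (by positivity)
  have h7 : 3.36 * (a ^ 2 / 23.32) ≥ a ^ 2 / 7 := by
    rw [ge_iff_le, ← sub_nonneg]
    have : 3.36 * (a ^ 2 / 23.32) - a ^ 2 / 7 = a ^ 2 * (3.36 / 23.32 - 1 / 7) := by ring
    rw [this]
    exact mul_nonneg h5 (by norm_num)
  linarith

/-- **(F1) + (F2)**: half of the Cameron-Martin ball plus noise of amplitude `1/(2a)` -/
theorem cm_noise {C : Set (I → ℝ)} (hm : MeasurableSet C) (hc : Convex ℝ C)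
    (hs : ∀ g ∈ C, -g ∈ C) (hp : (gau I).real Cᶜ ≤ 1 / 30) {h : I → ℝ}
    (hh : ∑ i, h i ^ 2 ≤ 3) {a : ℝ} (ha : 1 ≤ a) :
    (gau I).real {g | (1 / 4 : ℝ) • h + (1 / (2 * a)) • g ∉ C} ≤ Real.exp (-(a ^ 2 / 7)) := by
  refine le_trans (measureReal_mono fun g hg => ?_) (fern hm hc hs hp ha)
  simp only [Set.mem_ofPred_eq] at hg ⊢
  intro h1
  refine hg ?_
  have h2 := hc (cm_ball hm hc hs hp hh) h1 (show (0 : ℝ) ≤ 1 / 2 by norm_num)
    (show (0 : ℝ) ≤ 1 / 2 by norm_num) (by norm_num)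
  have e : (1 / 2 : ℝ) • (1 / 2 : ℝ) • h + (1 / 2 : ℝ) • a⁻¹ • g
      = (1 / 4 : ℝ) • h + (1 / (2 * a)) • g := by
    rw [smul_smul, smul_smul]
    congr 2
    · norm_num
    · rw [one_div, one_div, mul_inv]
  rwa [e] at h2

/-! ### (F3) -/

/-- **(F3) smaller covariance**: `A Aᵀ ≤ B Bᵀ` and `S` convex:
`P(x + A g ∉ S) ≤ 2 P(x + B g ∉ S)` -/
theorem small_cov' {A : Matrix V I ℝ} {C : Matrix V K ℝ} {B : Matrix V J ℝ}
    (h : B * Bᵀ = A * Aᵀ + C * Cᵀ) {S : Set (V → ℝ)} (hm : MeasurableSet S) (hc : Convex ℝ S)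
    (x : V → ℝ) :
    (gau I).real {g | x + A *ᵥ g ∉ S} ≤ 2 * (gau J).real {g | x + B *ᵥ g ∉ S} := by
  have mB : Measurable fun g : J → ℝ => B *ᵥ g := by fun_prop
  have mP : Measurable fun p : (I → ℝ) × (K → ℝ) => A *ᵥ p.1 + C *ᵥ p.2 := by fun_prop
  have mM : Measurable fun p : (I → ℝ) × (K → ℝ) => A *ᵥ p.1 + (-C) *ᵥ p.2 := by fun_prop
  have mS : MeasurableSet {y : V → ℝ | x + y ∉ S} := ((measurable_const_add x) hm).compl
  have l1 := H239.gau_prod_map h
  have l2 := H239.gau_prod_map (A := A) (C := -C) (B := B) (by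
    rw [h, Matrix.transpose_neg, Matrix.mul_neg, Matrix.neg_mul, neg_neg])
  have e1 : (gau J).real {g | x + B *ᵥ g ∉ S}
      = ((gau I).prod (gau K)).real {p | x + (A *ᵥ p.1 + C *ᵥ p.2) ∉ S} := by
    have h1 : (gau J).real {g | x + B *ᵥ g ∉ S}
        = ((gau J).map fun g => B *ᵥ g).real {y | x + y ∉ S} := by
      rw [map_measureReal_apply mB mS]; rfl
    rw [h1, ← l1, map_measureReal_apply mP mS]
    rfl
  have e2 : (gau J).real {g | x + B *ᵥ g ∉ S}
      = ((gau I).prod (gau K)).real {p | x + (A *ᵥ p.1 + (-C) *ᵥ p.2) ∉ S} := by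
    have h1 : (gau J).real {g | x + B *ᵥ g ∉ S}
        = ((gau J).map fun g => B *ᵥ g).real {y | x + y ∉ S} := by
      rw [map_measureReal_apply mB mS]; rfl
    rw [h1, ← l2, map_measureReal_apply mM mS]
    rfl
  have e3 : (gau I).real {g | x + A *ᵥ g ∉ S}
      = ((gau I).prod (gau K)).real ({g | x + A *ᵥ g ∉ S} ×ˢ (Set.univ : Set (K → ℝ))) := by
    rw [measureReal_prod_prod, probReal_univ, mul_one]
  rw [e3, two_mul]
  nth_rewrite 1 [e1]
  rw [e2]
  refine le_trans (measureReal_mono ?_) (measureReal_union_le _ _)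
  rintro ⟨g, g'⟩ hg
  simp only [Set.mem_prod, Set.mem_ofPred_eq, Set.mem_univ, and_true, Set.mem_union] at hg ⊢
  by_contra hn
  push Not at hn
  have h5 := hc hn.1 hn.2 (show (0 : ℝ) ≤ 1 / 2 by norm_num)
    (show (0 : ℝ) ≤ 1 / 2 by norm_num) (by norm_num)
  refine hg ?_
  have e : (1 / 2 : ℝ) • (x + (A *ᵥ g + C *ᵥ g')) + (1 / 2 : ℝ) • (x + (A *ᵥ g + (-C) *ᵥ g'))
      = x + A *ᵥ g := by
    rw [Matrix.neg_mulVec]
    module
  rwa [e] at h5

/-- **(F3)** with the Loewner order -/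
theorem small_cov {A : Matrix V I ℝ} {B : Matrix V J ℝ} (h : (B * Bᵀ - A * Aᵀ).PosSemidef)
    {S : Set (V → ℝ)} (hm : MeasurableSet S) (hc : Convex ℝ S) (x : V → ℝ) :
    (gau I).real {g | x + A *ᵥ g ∉ S} ≤ 2 * (gau J).real {g | x + B *ᵥ g ∉ S} := by
  classical
  obtain ⟨C, hC⟩ := H239.exists_increment h
  exact small_cov' (C := C) (by rw [← hC]; abel) hm hc x

end Vale.Agent.P159.H586
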